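import Vale.Agent.P078.MKS.Defs

/-!
The polynomial which dominates the squared excess above `u` on `[-1, 1]` and is dominated by a
constant plus a multiple of the smoothed indicator.
-/

noncomputable section

namespace Vale.Agent.P078.MKS

open Polynomial

/-- `((x + 1) / (1 + u)) ^ m`. -/
def qm (u : ℝ) (m : ℕ) : Polynomial ℝ :=
  Polynomial.C ((1 + u) ^ m)⁻¹ * (Polynomial.X + Polynomial.C 1) ^ m

lemma eval_qm (u : ℝ) (m : ℕ) (x : ℝ) : (qm u m).eval x = ((x + 1) / (1 + u)) ^ m := by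
  simp only [qm, eval_mul, eval_C, eval_pow, eval_add, eval_X, div_pow]
  ring

lemma qm_nonneg {u : ℝ} (hu : 0 ≤ u) (m : ℕ) {x : ℝ} (hx : x ∈ Set.Icc (-1 : ℝ) 1) :
    0 ≤ (qm u m).eval x := by
  rw [eval_qm]
  exact pow_nonneg (div_nonneg (by linarith [hx.1]) (by linarith)) m

lemma excess_sq_le_qm {u : ℝ} (hu : 0 ≤ u) (m : ℕ) {x : ℝ} (hx : x ∈ Set.Icc (-1 : ℝ) 1) :
    (max (x - u) 0) ^ 2 ≤ (qm u m).eval x := by
  rcases le_total x u with h | h
  · rw [max_eq_right (sub_nonpos.2 h)]; simpa using qm_nonneg hu m hx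
  · rw [eval_qm, max_eq_left (sub_nonneg.2 h)]
    refine le_trans ?_ (one_le_pow₀ ((one_le_div (by linarith)).2 (by linarith)))
    nlinarith [hx.2]

lemma soft_nonneg (t g x : ℝ) : 0 ≤ soft t g x := by
  have h := Real.neg_pi_div_two_lt_arctan ((x - t) / g)
  have : -(1 / 2 : ℝ) ≤ Real.arctan ((x - t) / g) / Real.pi := by
    rw [le_div_iff₀ Real.pi_pos]; linarith
  unfold soft
  linarith

lemma half_le_soft {t g x : ℝ} (hg : 0 < g) (hx : t ≤ x) : 1 / 2 ≤ soft t g x := by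
  have h : 0 ≤ Real.arctan ((x - t) / g) :=
    Real.arctan_nonneg.2 (div_nonneg (by linarith) hg.le)
  have := div_nonneg h Real.pi_pos.le
  unfold soft
  linarith

lemma qm_le {u t g : ℝ} (hu : 0 ≤ u) (ht : -1 ≤ t) (hg : 0 < g) (m : ℕ) {x : ℝ}
    (hx : x ∈ Set.Icc (-1 : ℝ) 1) :
    (qm u m).eval x ≤ ((1 + t) / (1 + u)) ^ m + 2 * (2 / (1 + u)) ^ m * soft t g x := by
  have h1 : 0 ≤ (x + 1) / (1 + u) := div_nonneg (by linarith [hx.1]) (by linarith)
  have h2 : 0 ≤ (2 / (1 + u)) ^ m := by positivity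
  rw [eval_qm]
  rcases le_total x t with h | h
  · refine le_trans (pow_le_pow_left₀ h1 ?_ m) (le_add_of_nonneg_right
      (mul_nonneg (mul_nonneg two_pos.le h2) (soft_nonneg t g x)))
    exact div_le_div_of_nonneg_right (by linarith) (by linarith)
  · refine le_trans (pow_le_pow_left₀ h1 (div_le_div_of_nonneg_right
      (show x + 1 ≤ 2 by linarith [hx.2]) (by linarith)) m) ?_
    have h3 : 0 ≤ ((1 + t) / (1 + u)) ^ m :=
      pow_nonneg (div_nonneg (by linarith) (by linarith)) m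
    nlinarith [mul_le_mul_of_nonneg_left (half_le_soft hg h) h2]

lemma exists_qm_exponent {u t κ : ℝ} (ht : -1 ≤ t) (htu : t < u) (hκ : 0 < κ) :
    ∃ m : ℕ, ((1 + t) / (1 + u)) ^ m < κ :=
  exists_pow_lt_of_lt_one hκ ((div_lt_one (by linarith)).2 (by linarith))

/-- Below `t` the smoothed indicator is small. -/
lemma soft_le {t g x b : ℝ} (hg : 0 < g) (hx : x ≤ b) (hb : b < t) :
    soft t g x ≤ g / (t - b) := by
  have hy : 0 < (t - x) / g := div_pos (by linarith) hg
  have e : Real.arctan ((x - t) / g) = Real.arctan ((t - x) / g)⁻¹ - Real.pi / 2 := by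
    rw [Real.arctan_inv_of_pos hy, show (x - t) / g = -((t - x) / g) by ring, Real.arctan_neg]
    ring
  have h0 : 0 ≤ Real.arctan ((t - x) / g)⁻¹ := Real.arctan_nonneg.2 (inv_nonneg.2 hy.le)
  have h1 : Real.arctan ((t - x) / g)⁻¹ ≤ g / (t - b) := by
    refine le_trans ?_ (div_le_div_of_nonneg_left hg.le (by linarith) (by linarith : t - b ≤ t - x))
    rw [inv_div]
    have hz : 0 ≤ g / (t - x) := div_nonneg hg.le (by linarith)
    by_cases hlt : Real.arctan (g / (t - x)) = 0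
    · rw [hlt]; exact hz
    · have hpos : 0 < Real.arctan (g / (t - x)) :=
        lt_of_le_of_ne (Real.arctan_nonneg.2 hz) (Ne.symm hlt)
      have := Real.lt_tan hpos (Real.arctan_lt_pi_div_two _)
      rw [Real.tan_arctan] at this
      exact this.le
  unfold soft
  rw [e]
  have hpi : (1 : ℝ) ≤ Real.pi := le_trans (by norm_num) Real.two_le_pi
  calc 1 / 2 + (Real.arctan ((t - x) / g)⁻¹ - Real.pi / 2) / Real.pi
      = Real.arctan ((t - x) / g)⁻¹ / Real.pi := by
        field_simp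
        ring
    _ ≤ Real.arctan ((t - x) / g)⁻¹ := div_le_self h0 hpi
    _ ≤ g / (t - b) := h1

end Vale.Agent.P078.MKS
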