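import Vale.Agent.P078.MKS.Statements

/-!
Statements of the finite steps for paving a matrix and its negative by the same colours.
-/

namespace Vale.Agent.P078.MKS

open Finset

variable {V : Type}

/-- The matrix `X` with row and column `v` multiplied by `d v`. -/
def scaled (X : Matrix V V ℂ) (d : V → ℝ) : Matrix V V ℂ :=
  Matrix.of fun a b => (d a : ℂ) * X a b * (d b : ℂ)

/-- Weights with at most three colours at `k` which increase the smoothed root count neither for
`X` nor for `-X`, up to the error of the polynomial. -/
def TwoStepStatement : Prop :=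
  ∀ (V : Type) [Fintype V] [DecidableEq V] (r : ℕ) (X : Matrix V V ℂ) (p : V → Fin r → ℝ),
    X.IsHermitian → IsProb p → ∀ (c : ℝ), 0 ≤ c → OpBound X c →
      ∀ (t g η : ℝ) (q : Polynomial ℝ), 0 < g →
        (∀ x ∈ Set.Icc (-c) c, |(Polynomial.derivative q).eval x - deriv (soft t g) x| ≤ η) →
        ∀ k : V, ∃ v : Fin r → ℝ, IsProb (Function.update p k v) ∧
          ({i | v i ≠ 0} : Finset (Fin r)).card ≤ 3 ∧ (∀ i, p k i = 0 → v i = 0) ∧
          rootSum (fun x => q.eval x) (charMix X (Function.update p k v) univ) ≤
            rootSum (fun x => q.eval x) (charMix X p univ) + 4 * c * η ∧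
          rootSum (fun x => q.eval x) (charMix (-X) (Function.update p k v) univ) ≤
            rootSum (fun x => q.eval x) (charMix (-X) p univ) + 4 * c * η

/-- Giving `k` the colour `s` and scaling its row and column by `d`, `d ^ 2 ≤ p k s`, does not
increase the shifted power sums of the roots. -/
def ShrinkStatement : Prop :=
  ∀ (V : Type) [Fintype V] [DecidableEq V] (r : ℕ) (X : Matrix V V ℂ) (p : V → Fin r → ℝ),
    X.IsHermitian → IsProb p → (∀ a, X a a = 0) → ∀ (c : ℝ), 0 ≤ c → OpBound X c →
      ∀ (k : V) (s : Fin r) (d : ℝ), 0 ≤ d → d ^ 2 ≤ p k s → ∀ m : ℕ,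
        rootSum (fun x => (x + c) ^ m)
            (charMix (scaled X (Function.update 1 k d)) (setColour p k s) univ) ≤
          rootSum (fun x => (x + c) ^ m) (charMix X p univ)

end Vale.Agent.P078.MKS
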