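import Vale.Agent.P078.MKS.Assembly.L2

/-!
From a small polynomial of `D S D` to a small excess of `S`, when `D` is bounded below.
-/

namespace Vale.Agent.P078.MKS

open Singular

variable {H : Type} [NormedAddCommGroup H] [InnerProductSpace ℂ H] [CompleteSpace H]
  {M : VonNeumannAlgebra H} {e : H →L[ℂ] H} {τ : (H →L[ℂ] H) →ₗ[ℂ] ℂ}

variable (hτ : IsTrace M e τ) (he : IsStarProjection e)
include hτ he

theorem tr_mul_nonneg {a b : H →L[ℂ] H} (ha : Cor M e a) (hb : Cor M e b) (ha0 : 0 ≤ a)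
    (hb0 : 0 ≤ b) : 0 ≤ (τ (a * b)).re := by
  set w := cfc Real.sqrt b with hwdef
  have hws : star w = w := (cfc_predicate _ _ : IsSelfAdjoint (cfc Real.sqrt b)).star_eq
  have hww : w * w = b := by
    rw [hwdef, ← cfc_mul _ _ b]
    conv_rhs => rw [← cfc_id' ℝ b]
    exact cfc_congr fun x hx => Real.mul_self_sqrt (spectrum_nonneg_of_nonneg hb0 hx)
  have h1 : w * (1 - e) = 0 := by
    rw [← CStarRing.star_mul_self_eq_zero_iff]
    rw [star_mul, hws, he.one_sub.isSelfAdjoint.star_eq, mul_assoc, ← mul_assoc w, hww, sub_mul,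
      one_mul, ← mul_assoc, hb.mul_left he, sub_self]
  have h2 : w * e = w := by rw [mul_sub, mul_one, sub_eq_zero] at h1; exact h1.symm
  have h3 : e * w = w := by
    simpa [star_mul, hws, he.isSelfAdjoint.star_eq] using congrArg star h2
  have hw : Cor M e w := Cor.of_abs he (cfc_mem hb.1 _) h3 h2
  have haw := ha.mul he hw
  rw [← hww, ← mul_assoc, hτ.2.2.1 (a * w) haw.1 w hw.1 haw.2 hw.2, ← mul_assoc]
  refine tr_nonneg hτ he ((hw.mul he ha).mul he hw) ?_
  have := conj_le ha0 w
  rwa [hws, mul_zero, zero_mul] at this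

/-- The excess of `W` above `c` is at most any majorant of `W - c`. -/
theorem n2_excess_le (heM : e ∈ M) {W T : H →L[ℂ] H} (hW : Cor M e W) (hWs : IsSelfAdjoint W)
    (hT : Cor M e T) {c : ℝ} (hc : 0 < c) (h : W ≤ c • e + T) :
    n2 τ (excess c W) ≤ n2 τ T := by
  set f := excess c W with hf
  have hfs : IsSelfAdjoint f := isSelfAdjoint_excess c W
  have hfc : Cor M e f := cor_excess he hW hc hWs
  have hf0 : 0 ≤ f := cfc_nonneg fun x _ => le_max_right _ _
  have hP : Cor M e (c • e + T - W) := (((cor_proj heM he).rsmul c).add hT).sub hW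
  have h1 := tr_mul_nonneg hτ he hfc hP hf0 (sub_nonneg.2 h)
  have h2 : f * W - c • (f * e) = f * f := by
    rw [hfc.mul_right he]
    have e1 : f * W = cfc (fun x => max (x - c) 0 * x) W := by
      rw [hf, excess]
      conv_lhs => arg 2; rw [← cfc_id' ℝ W]
      rw [← cfc_mul _ _ W]
    rw [e1, hf, excess, ← cfc_smul _ _ W, ← cfc_sub _ _ W, ← cfc_mul _ _ W]
    refine cfc_congr fun x _ => ?_
    rcases le_total x c with hx | hx
    · simp [hx]
    · simp only [max_eq_left (sub_nonneg.2 hx), smul_eq_mul]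
      ring
  rw [mul_sub, mul_add, mul_smul_comm, map_sub, map_add, Complex.sub_re, Complex.add_re] at h1
  have h3 : (τ (f * f)).re ≤ (τ (f * T)).re := by
    rw [← h2, map_sub, Complex.sub_re]
    linarith
  have h4 := re_inner_le hτ he hfc hT
  rw [hfs.star_eq] at h4
  have h5 := n2_sq hτ he hfc
  rw [hfs.star_eq] at h5
  rcases (n2_nonneg (τ := τ) f).eq_or_lt with h6 | h6
  · rw [← h6]; exact n2_nonneg _
  · nlinarith

/-- The cut at the end of two-sided paving: `B` is the inverse of the scaling. -/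
theorem end_cut (heM : e ∈ M) {T B S : H →L[ℂ] H} (hT : Cor M e T) (hTs : IsSelfAdjoint T)
    (hT1 : ‖T‖ ≤ 1) (hB : Cor M e B) (hBs : IsSelfAdjoint B) (hB3 : B * B ≤ (3 : ℝ) • e)
    (hS : B * T * B = S) {u δ : ℝ} (hu : 0 < u) {q : Polynomial ℝ}
    (hq : ∀ x ∈ Set.Icc (-1 : ℝ) 1, (max (x - u) 0) ^ 2 ≤ q.eval x)
    (h : (τ (e * Polynomial.aeval T q * e)).re ≤ δ) :
    (τ (excess (3 * u) S * excess (3 * u) S)).re ≤ 9 * δ := by
  set E := excess u T with hE
  have hEs : IsSelfAdjoint E := isSelfAdjoint_excess u T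
  have hEc : Cor M e E := cor_excess he hT hu hTs
  have hSc : Cor M e S := hS ▸ (hB.mul he hT).mul he hB
  have hSs : IsSelfAdjoint S := by
    rw [← hS]
    have := hTs.conjugate B
    rwa [hBs.star_eq] at this
  -- `E * E` is below the polynomial
  have hspec : ∀ x ∈ spectrum ℝ T, x ∈ Set.Icc (-1 : ℝ) 1 := fun x hx =>
    abs_le.1 (((Real.norm_eq_abs x).symm.le.trans (spectrum.norm_le_norm_mul_of_mem hx)).trans
      ((mul_le_of_le_one_right (norm_nonneg _) ContinuousLinearMap.norm_id_le).trans hT1))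
  have hEq : E * E ≤ Polynomial.aeval T q := by
    rw [hE, excess, ← cfc_mul _ _ T, ← cfc_polynomial q T]
    refine cfc_mono fun x hx => ?_
    rw [← sq]
    exact hq x (hspec x hx)
  have hqc : Cor M e (e * Polynomial.aeval T q * e) :=
    ⟨mul_mem (mul_mem heM (cfc_polynomial q T ▸ cfc_mem hT.1 _)) heM, by
      simp only [← mul_assoc, he.isIdempotentElem.eq]
      simp only [mul_assoc, he.isIdempotentElem.eq]⟩
  have hδ : n2 τ E ^ 2 ≤ δ := by
    rw [n2_sq hτ he hEc, hEs.star_eq]
    refine le_trans ?_ h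
    have := conj_le hEq e
    rw [he.isSelfAdjoint.star_eq, (hEc.mul he hEc).2] at this
    exact tr_mono hτ he (hEc.mul he hEc) hqc this
  -- move the excess through the scaling
  have hle : S ≤ (3 * u) • e + B * E * B := by
    have h1 : T ≤ u • e + E := by
      have := conj_le (le_add_excess hTs u).2 e
      rwa [he.isSelfAdjoint.star_eq, hT.2, mul_add, add_mul, hEc.2, mul_smul_comm, smul_mul_assoc,
        mul_one, he.isIdempotentElem.eq] at this
    have h2 := conj_le h1 B
    rw [hBs.star_eq, hS, mul_add, add_mul, mul_smul_comm, smul_mul_assoc, hB.mul_right he] at h2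
    refine h2.trans (add_le_add_left ?_ _)
    rw [mul_comm (3 : ℝ) u, mul_smul]
    exact smul_le_smul_of_nonneg_left hB3 hu.le
  have hBn : ‖B‖ * ‖B‖ ≤ 3 := by
    rw [← CStarRing.norm_star_mul_self, hBs.star_eq]
    have h0 : 0 ≤ B * B := by
      have := star_mul_self_nonneg B
      rwa [hBs.star_eq] at this
    refine norm_le_of_bounds (.of_nonneg h0) (by norm_num) (le_trans ?_ h0)
      (hB3.trans (smul_le_smul_of_nonneg_left (proj_le_one he) (by norm_num)))
    rw [neg_smul]
    exact neg_nonpos.2 (smul_nonneg (by norm_num) zero_le_one)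
  have hEB : Cor M e (E * B) := hEc.mul he hB
  have hn := n2_excess_le hτ he heM hSc hSs ((hB.mul he hEc).mul he hB) (by linarith) hle
  have hn2 : n2 τ (B * E * B) ≤ 3 * n2 τ E := by
    refine (n2_mul_right_le hτ he ((hB.mul he hEc).mul he hB) (hB.mul he hEc)).trans ?_
    refine (mul_le_mul_of_nonneg_left (n2_mul_le hτ he (hB.mul he hEc) hEc)
      (norm_nonneg B)).trans ?_
    rw [← mul_assoc]
    exact mul_le_mul_of_nonneg_right hBn (n2_nonneg _)
  have h9 := n2_sq hτ he (cor_excess he hSc (show 0 < 3 * u by linarith) hSs)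
  rw [(isSelfAdjoint_excess (3 * u) S).star_eq] at h9
  nlinarith [hn.trans hn2, n2_nonneg (τ := τ) (excess (3 * u) S), n2_nonneg (τ := τ) E]

end Vale.Agent.P078.MKS
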