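import Vale.Agent.P078.MKS.TwoSided.Defs
import Vale.Agent.P078.MKS.Step
import Vale.Agent.P078.MKS.Moments

/-!
Rounding: fixing the colour `s` at `k` and scaling its row and column by `d`, `d ^ 2 ≤ p k s`,
does not increase the shifted power sums of the roots. Both polynomials are characteristic
polynomials of arrow matrices, and the smaller weights give entrywise smaller nonnegative matrices.
-/

noncomputable section

namespace Vale.Agent.P078.MKS

open Finset Matrix
open scoped Classical

variable {V : Type} [Fintype V] [DecidableEq V] {r : ℕ}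

lemma charpoly_eq_charMix (B : Matrix V V ℂ) :
    charMix B (fun _ (_ : Fin 1) => (1 : ℝ)) univ = B.charpoly := by
  rw [charMix_eq, Fintype.sum_subsingleton _ (fun _ => (0 : Fin 1))]
  have h := dpoly_mul B (fun _ => (0 : Fin 1)) univ
  rw [show cut B (fun _ => (0 : Fin 1)) univ = B by ext a b; simp [cut]] at h
  simpa [cw] using h

/-- The trace of a polynomial in a matrix is the sum of its values at the roots of the
characteristic polynomial. -/
lemma trace_aeval_eq_sum (B : Matrix V V ℂ) (q : Polynomial ℂ) :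
    (Polynomial.aeval B q).trace = (B.charpoly.roots.map fun z => q.eval z).sum := by
  have hp : IsProb (V := V) fun _ (_ : Fin 1) => (1 : ℝ) := fun v => by simp
  obtain ⟨hsum, -, -, hfull⟩ := moment_ok V 1 B _ hp
  have hf := hfull (fun _ => 0) (by funext v i; simp [Subsingleton.elim i 0])
  have hpow : ∀ j, (B ^ j).trace = (B.charpoly.roots.map fun z => z ^ j).sum := fun j => by
    rw [← charpoly_eq_charMix, ← hsum j, Matrix.trace]
    refine Finset.sum_congr rfl fun k _ => ?_
    rw [hf k j]
    simp only [Matrix.diag_apply, if_true]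
    rfl
  induction q using Polynomial.induction_on' with
  | add p q hp hq => simp only [map_add, Matrix.trace_add, hp, hq, Polynomial.eval_add,
      Multiset.sum_map_add]
  | monomial n a =>
    rw [Polynomial.aeval_monomial, ← Algebra.smul_def, Matrix.trace_smul, smul_eq_mul, hpow]
    simp only [Polynomial.eval_monomial, Multiset.sum_map_mul_left]

section Arrow

variable (Q : Polynomial ℂ)

/-- One index for the vertex and one for each root with multiplicity. -/
abbrev ArrowIdx : Type := Unit ⊕ ((z : Q.roots.toFinset) × Fin (Q.roots.count (z : ℂ)))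

/-- The arrow matrix of the weights `M` on the roots of `Q`, shifted by `c`. -/
def arrow (c : ℝ) (M : ℂ → ℝ) : Matrix (ArrowIdx Q) (ArrowIdx Q) ℝ :=
  let v := fun a : (z : Q.roots.toFinset) × Fin (Q.roots.count (z : ℂ)) =>
    if (a.2 : ℕ) = 0 then Real.sqrt (M a.1) else 0
  Matrix.fromBlocks (Matrix.of fun _ _ => c) (Matrix.of fun _ a => v a) (Matrix.of fun a _ => v a)
    (Matrix.diagonal fun a => (a.1 : ℂ).re + c)

/-- The polynomial `z Q - N`, where `N / Q` has residues `M`. -/
def arrowPoly (M : ℂ → ℝ) : Polynomial ℂ :=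
  Polynomial.X * Q - ∑ z ∈ Q.roots.toFinset,
    Polynomial.C (M z : ℂ) * (Q /ₘ (Polynomial.X - Polynomial.C z))

lemma arrow_shift (c : ℝ) (M : ℂ → ℝ) :
    arrow Q c M = arrow Q 0 M + algebraMap ℝ _ c := by
  ext a b
  rcases a with a | a <;> rcases b with b | b <;>
    simp [arrow, Matrix.algebraMap_matrix_apply, Matrix.diagonal_apply]
  split_ifs <;> ring

variable {Q}

lemma charpoly_arrow (hQ : Q.Monic) (hroots : ∀ z ∈ Q.roots, z.im = 0) {M : ℂ → ℝ}
    (hM : ∀ z, 0 ≤ M z) :
    ((arrow Q 0 M).map Complex.ofRealHom).charpoly = arrowPoly Q M := by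
  refine Polynomial.eq_of_infinite_eval_eq _ _
    (Q.roots.toFinset.finite_toSet.infinite_compl.mono fun x hx => ?_)
  have hx' : ∀ z ∈ Q.roots.toFinset, x - z ≠ 0 := fun z hz h =>
    hx (by rw [sub_eq_zero.1 h]; exact hz)
  have hre : ∀ a : (z : Q.roots.toFinset) × Fin (Q.roots.count (z : ℂ)),
      ((a.1 : ℂ).re : ℂ) = a.1 := fun a =>
    Complex.ext rfl (by simpa using (hroots _ (Multiset.mem_toFinset.1 a.1.2)).symm)
  set v := fun a : (z : Q.roots.toFinset) × Fin (Q.roots.count (z : ℂ)) =>
    ((if (a.2 : ℕ) = 0 then Real.sqrt (M a.1) else 0 : ℝ) : ℂ)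
  set w := fun a : (z : Q.roots.toFinset) × Fin (Q.roots.count (z : ℂ)) => x - (a.1 : ℂ) with hw
  have e : Matrix.scalar (ArrowIdx Q) x - (arrow Q 0 M).map Complex.ofRealHom =
      Matrix.fromBlocks (Matrix.of fun _ _ => x) (Matrix.of fun _ a => -v a)
        (Matrix.of fun a _ => -v a)
        (Matrix.diagonal w) := by
    ext a b
    rcases a with a | a <;> rcases b with b | b <;>
      simp [arrow, v, Matrix.diagonal_apply, apply_ite (fun t : ℝ => (t : ℂ)), hre, hw]
    split_ifs <;> simp_all
  let _ : Invertible (Matrix.diagonal w) :=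
    ⟨Matrix.diagonal fun a => (w a)⁻¹,
      by rw [Matrix.diagonal_mul_diagonal, ← Matrix.diagonal_one]
         exact congrArg _ (funext fun a => inv_mul_cancel₀ (hx' _ a.1.2)),
      by rw [Matrix.diagonal_mul_diagonal, ← Matrix.diagonal_one]
         exact congrArg _ (funext fun a => mul_inv_cancel₀ (hx' _ a.1.2))⟩
  have hinv : ⅟(Matrix.diagonal w) = Matrix.diagonal fun a => (w a)⁻¹ := rfl
  have hQx : Q.eval x = ∏ z ∈ Q.roots.toFinset, (x - z) ^ Q.roots.count z := by
    conv_lhs => rw [← Polynomial.prod_multiset_X_sub_C_of_monic_of_roots_card_eq hQ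
      IsAlgClosed.card_roots_eq_natDegree]
    rw [Finset.prod_multiset_map_count, Polynomial.eval_prod]
    simp
  have hdet : (Matrix.diagonal w).det = Q.eval x := by
    rw [Matrix.det_diagonal, hQx, Fintype.prod_sigma, ← Finset.prod_coe_sort Q.roots.toFinset]
    simp [w]
  have hsum : ∑ a, v a * ((w a)⁻¹ * v a) = ∑ z ∈ Q.roots.toFinset, (M z : ℂ) / (x - z) := by
    rw [Fintype.sum_sigma, ← Finset.sum_coe_sort Q.roots.toFinset
      (fun z => (M z : ℂ) / (x - z))]
    refine Finset.sum_congr rfl fun z _ => ?_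
    have hpos : 0 < Q.roots.count (z : ℂ) := Multiset.count_pos.2 (Multiset.mem_toFinset.1 z.2)
    rw [Finset.sum_eq_single (⟨0, hpos⟩ : Fin (Q.roots.count (z : ℂ)))
      (fun i _ hi => by
        have hi' : (i : ℕ) ≠ 0 := fun h => hi (Fin.ext h)
        simp [v, hi']) (by simp)]
    have hsq : (Real.sqrt (M z) : ℂ) * Real.sqrt (M z) = (M z : ℂ) := by
      rw [← Complex.ofReal_mul, Real.mul_self_sqrt (hM _)]
    simp only [v, w, if_true]
    rw [mul_comm (x - _)⁻¹, ← mul_assoc, hsq, div_eq_mul_inv]
  have hquot : ∀ z ∈ Q.roots.toFinset,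
      (Q /ₘ (Polynomial.X - Polynomial.C z)).eval x = Q.eval x / (x - z) := fun z hz => by
    rw [eq_div_iff (hx' z hz)]
    conv_rhs => rw [← Polynomial.mul_divByMonic_eq_iff_isRoot.2
      (Polynomial.mem_roots'.1 (Multiset.mem_toFinset.1 hz)).2]
    simp [mul_comm]
  show Polynomial.eval x _ = Polynomial.eval x _
  rw [Matrix.eval_charpoly, e, Matrix.det_fromBlocks₂₂, hdet, Matrix.det_unique, hinv,
    Matrix.sub_apply, Matrix.mul_apply]
  simp only [Matrix.mul_diagonal, Matrix.of_apply, neg_mul, mul_neg, neg_neg, mul_assoc]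
  rw [hsum, arrowPoly, Polynomial.eval_sub, Polynomial.eval_mul, Polynomial.eval_X,
    Polynomial.eval_finsetSum, mul_sub, Finset.mul_sum, mul_comm (Q.eval x) x]
  congr 1
  refine Finset.sum_congr rfl fun z hz => ?_
  rw [Polynomial.eval_mul, Polynomial.eval_C, hquot z hz]
  ring

lemma rootSum_arrowPoly (hQ : Q.Monic) (hroots : ∀ z ∈ Q.roots, z.im = 0) {M : ℂ → ℝ}
    (hM : ∀ z, 0 ≤ M z) (hreal : ∀ z ∈ (arrowPoly Q M).roots, z.im = 0) (c : ℝ) (m : ℕ) :
    rootSum (fun x => (x + c) ^ m) (arrowPoly Q M) = (arrow Q c M ^ m).trace := by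
  have h := trace_aeval_eq_sum ((arrow Q 0 M).map Complex.ofRealHom)
    ((Polynomial.X + Polynomial.C (c : ℂ)) ^ m)
  rw [charpoly_arrow hQ hroots hM] at h
  have e : Polynomial.aeval ((arrow Q 0 M).map Complex.ofRealHom)
      ((Polynomial.X + Polynomial.C (c : ℂ)) ^ m) = (arrow Q c M ^ m).map Complex.ofRealHom := by
    rw [map_pow, map_add, Polynomial.aeval_X, Polynomial.aeval_C, Matrix.map_pow,
      arrow_shift Q c M]
    congr 1
    ext a b
    simp [Matrix.algebraMap_matrix_apply, apply_ite (fun t : ℝ => (t : ℂ))]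
  have h2 : ((arrow Q c M ^ m).map Complex.ofRealHom).trace = ((arrow Q c M ^ m).trace : ℂ) := by
    simp [Matrix.trace]
  rw [e, h2] at h
  apply Complex.ofReal_injective
  rw [h, rootSum, ← Complex.ofRealHom_eq_coe, map_multiset_sum, Multiset.map_map]
  refine congrArg _ (Multiset.map_congr rfl fun z hz => ?_)
  have hz' : (z.re : ℂ) = z := Complex.ext rfl (by simpa using (hreal z hz).symm)
  simp [hz']

lemma pow_entry_mono {ι : Type} [Fintype ι] [DecidableEq ι] {A B : Matrix ι ι ℝ}
    (hA : ∀ i j, 0 ≤ A i j) (hAB : ∀ i j, A i j ≤ B i j) (m : ℕ) :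
    ∀ i j, 0 ≤ (A ^ m) i j ∧ (A ^ m) i j ≤ (B ^ m) i j := by
  induction m with
  | zero => intro i j; simp only [pow_zero, Matrix.one_apply]; split_ifs <;> norm_num
  | succ m ih =>
    intro i j
    simp only [pow_succ, Matrix.mul_apply]
    exact ⟨Finset.sum_nonneg fun l _ => mul_nonneg (ih i l).1 (hA l j),
      Finset.sum_le_sum fun l _ => mul_le_mul (ih i l).2 (hAB l j) (hA l j)
        ((ih i l).1.trans (ih i l).2)⟩

lemma trace_arrow_mono {c : ℝ} (hc : 0 ≤ c) (hroots : ∀ z ∈ Q.roots, |z.re| ≤ c) {M M' : ℂ → ℝ}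
    (hle : ∀ z, M' z ≤ M z) (m : ℕ) :
    (arrow Q c M' ^ m).trace ≤ (arrow Q c M ^ m).trace := by
  refine Finset.sum_le_sum fun i _ => (pow_entry_mono (fun a b => ?_) (fun a b => ?_) m i i).2
  · rcases a with a | a <;> rcases b with b | b
    · simpa [arrow] using hc
    · simp [arrow]; split_ifs <;> simp
    · simp [arrow]; split_ifs <;> simp
    · simp [arrow, Matrix.diagonal_apply]
      split_ifs
      · linarith [(abs_le.1 (hroots _ (Multiset.mem_toFinset.1 a.1.2))).1]
      · exact le_rfl
  · rcases a with a | a <;> rcases b with b | b <;> simp [arrow]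
    all_goals split_ifs <;> simp [Real.sqrt_le_sqrt (hle _)]

end Arrow

lemma charMix_coeff_pred {X : Matrix V V ℂ} (hd : ∀ a, X a a = 0) (p : V → Fin r → ℝ)
    {S : Finset V} {m : ℕ} (hm : m + 1 = S.card) : (charMix X p S).coeff m = 0 := by
  have : Nonempty V := (Finset.card_pos.1 (show 0 < S.card by omega)).to_subtype.map Subtype.val
  rw [charMix_eq, Polynomial.finsetSum_coeff]
  refine Finset.sum_eq_zero fun f _ => ?_
  rw [Polynomial.coeff_C_mul]
  have h := congrArg (fun P : Polynomial ℂ => P.coeff (m + Sᶜ.card)) (dpoly_mul X f S)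
  -- beta
  rw [show (∏ a : V, if a ∈ S then (1 : Polynomial ℂ) else Polynomial.X) =
      Polynomial.X ^ Sᶜ.card by
    rw [← Finset.prod_mul_prod_compl S, Finset.prod_eq_one fun a ha => if_pos ha, one_mul,
      Finset.prod_congr rfl fun a ha => if_neg (Finset.mem_compl.1 ha), Finset.prod_const],
    Polynomial.coeff_X_pow_mul,
    show m + Sᶜ.card = Fintype.card V - 1 by
      have := Finset.card_compl_add_card S; omega,
    ← neg_neg ((cut X f S).charpoly.coeff _), ← Matrix.trace_eq_neg_charpoly_coeff] at h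
  rw [h]
  simp [Matrix.trace, cut, hd]

lemma rest_ratio {X : Matrix V V ℂ} (hX : X.IsHermitian) {p : V → Fin r → ℝ} (hp : IsProb p)
    (k : V) {w : ℂ} (hw : 0 < w.im) :
    w.im ≤ ((charMix X p univ).eval w / (charMix X p (univ.erase k)).eval w).im := by
  simp only [charMix_eval]
  have hQ := (stable_ok V r X p hX hp (univ.erase k) (fun _ => w) fun _ _ => hw).1
  rw [mixDet_affine X (cw p) (Finset.mem_univ k), add_div, mul_div_cancel_right₀ _ hQ,
    Complex.add_im]
  refine le_add_of_nonneg_right (im_rest_nonneg hQ (fun u hu => ?_) hw).2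
  have h2 := (stable_ok V r X p hX hp univ (Function.update (fun _ => w) k u) fun v _ => by
    rcases eq_or_ne v k with rfl | hv
    · simpa using hu
    · simpa [hv] using hw).1
  rwa [mixDet_affine X (cw p) (Finset.mem_univ k), Function.update_self, Function.update_idem,
    mixDet_erase_update] at h2

lemma scaled_block (X : Matrix V V ℂ) (f : V → Fin r) (k : V) (d : ℝ) (z : ℂ) :
    (block (scaled X (Function.update 1 k d)) f univ (Function.update (fun _ => z) k 0)).det =
      (d : ℂ) ^ 2 * (block X f univ (Function.update (fun _ => z) k 0)).det := by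
  set D : Matrix V V ℂ :=
    Matrix.diagonal fun a => ((Function.update (1 : V → ℝ) k d a : ℝ) : ℂ) with hD
  have e : block (scaled X (Function.update 1 k d)) f univ (Function.update (fun _ => z) k 0) =
      D * block X f univ (Function.update (fun _ => z) k 0) * D := by
    ext a b
    rw [hD, Matrix.mul_diagonal, Matrix.diagonal_mul, block_apply, block_apply]
    simp only [Finset.mem_univ, and_self, if_true, scaled, Matrix.of_apply]
    rcases eq_or_ne a b with rfl | hab
    · rcases eq_or_ne a k with rfl | ha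
      · simp only [Function.update_self, if_true]; ring
      · simp [Function.update_of_ne ha]
    · simp only [if_neg hab]
      split_ifs <;> ring
  have hdet : D.det = (d : ℂ) := by
    rw [hD, Matrix.det_diagonal, Finset.prod_eq_single k (fun a _ ha => by simp [ha]) (by simp)]
    simp
  rw [e, Matrix.det_mul, Matrix.det_mul, hdet]
  ring

theorem shrink_ok : ShrinkStatement := by
  intro V _ _ r X p hX hp hdiag c hc hb k s d hd0 hd m
  set Q := charMix X p (univ.erase k) with hQdef
  obtain ⟨hQm, hQn⟩ : Q.Monic ∧ Q.natDegree = ((univ : Finset V).erase k).card :=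
    charMix_monic X hp _
  have hQr := (root_ok V r X p hX hp c hc hb (univ.erase k)).2.2
  set Ps := fun t => charMix X (setColour p k t) univ with hPs
  have hdeg : ∀ t, (Polynomial.X * Q - Ps t).degree < Q.degree := fun t => by
    rw [Polynomial.degree_eq_natDegree hQm.ne_zero, hQn, Polynomial.degree_lt_iff_coeff_zero]
    intro i hi
    obtain ⟨hm1, hn1⟩ := charMix_monic X (isProb_setColour hp k t) univ
    have hcard := Finset.card_erase_add_one (Finset.mem_univ k)
    rw [Polynomial.coeff_sub, sub_eq_zero]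
    rcases Nat.eq_zero_or_pos i with rfl | hi0
    · rw [Polynomial.coeff_X_mul_zero, charMix_coeff_pred hdiag _ (by omega)]
    · obtain ⟨j, rfl⟩ : ∃ j, i = j + 1 := ⟨i - 1, by omega⟩
      rw [Polynomial.coeff_X_mul]
      rcases eq_or_lt_of_le hi with h | h
      · rw [charMix_coeff_pred hdiag _ (by omega), charMix_coeff_pred hdiag _ (by omega)]
      · rcases eq_or_lt_of_le (show ((univ : Finset V).erase k).card ≤ j by omega) with h' | h'
        · rw [← h', ← hQn, hQm.coeff_natDegree, show Q.natDegree + 1 = (Ps t).natDegree by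
            rw [hQn, hn1, hcard], hm1.coeff_natDegree]
        · rw [Polynomial.coeff_eq_zero_of_natDegree_lt (by omega),
            Polynomial.coeff_eq_zero_of_natDegree_lt (by rw [hn1]; omega)]
  have hw : ∀ t, ∀ w : ℂ, 0 < w.im →
      ((Polynomial.X * Q - Ps t).eval w / Q.eval w).im ≤ 0 := fun t w hw => by
    have h := rest_ratio hX (isProb_setColour hp k t) k hw
    rw [charMix_setColour_erase X hp, ← hQdef] at h
    rw [Polynomial.eval_sub, Polynomial.eval_mul, Polynomial.eval_X, sub_div,
      mul_div_cancel_right₀ _ (charMix_ratio hX hp k hw).2.1, Complex.sub_im]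
    linarith
  choose res hres0 hres using fun t => nonneg_fraction hQm (fun z hz => (hQr z hz).1) (hdeg t)
    (fun w hw => (charMix_ratio hX hp k hw).2.1) (hw t)
  set M := fun z => ∑ t, p k t * res t z with hM
  have hM0 : ∀ z, 0 ≤ M z := fun z =>
    Finset.sum_nonneg fun t _ => mul_nonneg ((hp k).1 t) (hres0 t z)
  have hP : charMix X p univ = arrowPoly Q M := by
    refine Polynomial.funext fun z => ?_
    rw [arrowPoly]
    simp only [hM, Complex.ofReal_sum, Complex.ofReal_mul, map_sum, map_mul, Finset.sum_mul,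
      mul_assoc]
    rw [Finset.sum_comm]
    simp only [← Finset.mul_sum, ← hres, Polynomial.eval_sub, Polynomial.eval_finsetSum,
      Polynomial.eval_mul, Polynomial.eval_C, mul_sub, Finset.sum_sub_distrib, ← Finset.sum_mul]
    rw [show ∑ t, (p k t : ℂ) = 1 by exact_mod_cast (hp k).2, one_mul, sub_sub_cancel,
      ← eval_split X p k]
  have hP' : charMix (scaled X (Function.update 1 k d)) (setColour p k s) univ =
      arrowPoly Q fun z => d ^ 2 * res s z := by
    refine Polynomial.funext fun z => ?_
    rw [arrowPoly]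
    simp only [Complex.ofReal_mul, map_mul, mul_assoc]
    rw [← Finset.mul_sum, ← hres]
    simp only [Polynomial.eval_sub, Polynomial.eval_mul, Polynomial.eval_X, Polynomial.eval_C,
      Complex.ofReal_pow]
    rw [hQdef, hPs, ← charMix_setColour_erase X hp k s]
    simp only [charMix_eval]
    rw [mixDet_affine X _ (Finset.mem_univ k), mixDet_affine _ _ (Finset.mem_univ k)]
    have hQ' : mixDet (scaled X (Function.update 1 k d)) (cw (setColour p k s)) (univ.erase k)
        (fun _ => z) = mixDet X (cw (setColour p k s)) (univ.erase k) fun _ => z := by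
      refine Finset.sum_congr rfl fun f _ => ?_
      congr 2
      ext a b
      by_cases ha : a = k <;> by_cases hb : b = k <;> simp [block_apply, ha, hb, scaled]
    have hR' : mixDet (scaled X (Function.update 1 k d)) (cw (setColour p k s)) univ
        (Function.update (fun _ => z) k 0) = (d : ℂ) ^ 2 *
          mixDet X (cw (setColour p k s)) univ (Function.update (fun _ => z) k 0) := by
      unfold mixDet
      rw [Finset.mul_sum]
      exact Finset.sum_congr rfl fun f _ => by rw [scaled_block]; ring
    rw [hQ', hR']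
    ring
  have hXs : (scaled X (Function.update 1 k d)).IsHermitian := by
    ext a b
    simp [scaled, hX.apply a b]
    ring
  rw [hP, hP', rootSum_arrowPoly hQm (fun z hz => (hQr z hz).1)
      (fun z => mul_nonneg (sq_nonneg d) (hres0 s z))
      (fun z hz => charMix_roots_real hXs (isProb_setColour hp k s) (hP' ▸ hz)),
    rootSum_arrowPoly hQm (fun z hz => (hQr z hz).1) hM0
      (fun z hz => charMix_roots_real hX hp (hP ▸ hz))]
  exact trace_arrow_mono hc (fun z hz => (hQr z hz).2) (fun z =>
    (mul_le_mul_of_nonneg_right hd (hres0 s z)).trans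
      (Finset.single_le_sum (f := fun t => p k t * res t z)
        (fun t _ => mul_nonneg ((hp k).1 t) (hres0 t z)) (Finset.mem_univ s))) m

end Vale.Agent.P078.MKS
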