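import Vale.Agent.P078.MKS.TwoSided.Defs
import Vale.Agent.P078.MKS.Step

/-!
One step for `X` and `-X` together: both angle conditions are linear in the weights, so three
colours are enough (Carathéodory in the plane).
-/

noncomputable section

namespace Vale.Agent.P078.MKS

open Finset

variable {V : Type} [Fintype V] [DecidableEq V] {r : ℕ}

lemma update_mean (p : V → Fin r → ℝ) (k : V) (v : Fin r → ℝ) (s : Fin r) :
    setColour (Function.update p k v) k s = setColour p k s :=
  Function.update_idem _ _ _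

/-- The angle of the colour `s` at `k` against the mean. -/
def tilt (X : Matrix V V ℂ) (p : V → Fin r → ℝ) (k : V) (t g : ℝ) (s : Fin r) : ℝ :=
  ((charMix X (setColour p k s) univ).eval ((t : ℂ) + (g : ℂ) * Complex.I) *
    Complex.exp (((-(Real.pi * rootSum (soft t g) (charMix X p univ)) : ℝ) : ℂ) * Complex.I)).im

lemma sum_tilt {X : Matrix V V ℂ} (hX : X.IsHermitian) {p : V → Fin r → ℝ} (hp : IsProb p) (k : V)
    (t : ℝ) {g : ℝ} (hg : 0 < g) (v : Fin r → ℝ) (hv : IsProb (Function.update p k v)) :
    ∃ R : ℝ, 0 < R ∧ ∑ s, v s * tilt X p k t g s =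
      R * Real.sin (Real.pi * (rootSum (soft t g) (charMix X (Function.update p k v) univ) -
        rootSum (soft t g) (charMix X p univ))) := by
  obtain ⟨R, hR, e⟩ := eval_polar hX hv univ t hg
  refine ⟨R, hR, ?_⟩
  have h := congrArg (fun z => (z * Complex.exp
    (((-(Real.pi * rootSum (soft t g) (charMix X p univ)) : ℝ) : ℂ) * Complex.I)).im) e
  simp only [eval_split X (Function.update p k v) k univ, update_mean, Function.update_self,
    Finset.sum_mul, Complex.im_sum, mul_assoc (_ : ℂ) _ (Complex.exp _),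
    Complex.im_ofReal_mul] at h
  rw [← Complex.exp_add, ← add_mul, ← Complex.ofReal_add, Complex.exp_ofReal_mul_I_im,
    ← sub_eq_add_neg, ← mul_sub] at h
  exact h

lemma soft_le_of_tilt {X : Matrix V V ℂ} (hX : X.IsHermitian) {p : V → Fin r → ℝ} (hp : IsProb p)
    (k : V) (t : ℝ) {g : ℝ} (hg : 0 < g) (v : Fin r → ℝ) (hv : IsProb (Function.update p k v))
    (h : ∑ s, v s * tilt X p k t g s ≤ 0) :
    rootSum (soft t g) (charMix X (Function.update p k v) univ) ≤
      rootSum (soft t g) (charMix X p univ) := by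
  obtain ⟨R, hR, e⟩ := sum_tilt hX hp k t hg v hv
  have hd := (abs_lt.1 (soft_diff_congr hX hp hv k
    (fun u hu => Function.update_of_ne hu _ _) t hg)).2
  by_contra hlt
  push Not at hlt
  rw [e] at h
  have := mul_pos hR (Real.sin_pos_of_pos_of_lt_pi
    (mul_pos Real.pi_pos (sub_pos.2 hlt)) (mul_lt_of_lt_one_right Real.pi_pos hd))
  linarith

lemma sum_tilt_self {X : Matrix V V ℂ} (hX : X.IsHermitian) {p : V → Fin r → ℝ} (hp : IsProb p)
    (k : V) (t : ℝ) {g : ℝ} (hg : 0 < g) : ∑ s, p k s * tilt X p k t g s = 0 := by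
  have hv : IsProb (Function.update p k (p k)) := by rwa [Function.update_eq_self]
  obtain ⟨R, _, e⟩ := sum_tilt hX hp k t hg (p k) hv
  rw [e, Function.update_eq_self, sub_self, mul_zero, Real.sin_zero, mul_zero]

/-- Carathéodory in the plane. -/
lemma exists_three {ι : Type} [Fintype ι] {w : ι → ℝ} (hw : ∀ i, 0 ≤ w i)
    (hw1 : ∑ i, w i = 1) (z : ι → ℂ) :
    ∃ v : ι → ℝ, (∀ i, 0 ≤ v i) ∧ ∑ i, v i = 1 ∧ (∀ i, w i = 0 → v i = 0) ∧
      ({i | v i ≠ 0} : Finset ι).card ≤ 3 ∧ ∑ i, v i • z i = ∑ i, w i • z i := by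
  classical
  set J : Finset ι := {i | w i ≠ 0} with hJ
  have hmem : ∑ i, w i • z i ∈ convexHull ℝ (z '' (J : Set ι)) := by
    have h : ∑ i, w i • z i = ∑ i ∈ J, w i • z i :=
      (Finset.sum_subset (Finset.subset_univ J) fun i _ hi => by
        simp only [hJ, Finset.mem_filter, Finset.mem_univ, true_and, not_not] at hi
        rw [hi, zero_smul]).symm
    rw [h]
    refine (convex_convexHull ℝ _).sum_mem (fun i _ => hw i) ?_ fun i hi =>
      subset_convexHull ℝ _ (Set.mem_image_of_mem z hi)
    rw [← hw1]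
    exact Finset.sum_subset (Finset.subset_univ J) fun i _ hi => by
      simpa [hJ] using hi
  obtain ⟨κ, _, y, u, hy, hind, hu, hu1, heq⟩ := eq_pos_convex_span_of_mem_convexHull hmem
  choose f hfJ hf using fun a => hy (Set.mem_range_self a)
  refine ⟨fun i => ∑ a, if f a = i then u a else 0,
    fun i => Finset.sum_nonneg fun a _ => by split_ifs <;> [exact (hu a).le; exact le_rfl],
    ?_, fun i hi => Finset.sum_eq_zero fun a _ => if_neg fun h => ?_, ?_, ?_⟩
  · rw [Finset.sum_comm]; simp [hu1]
  · have := hfJ a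
    simp [hJ, h, hi] at this
  · refine (Finset.card_le_card (t := Finset.univ.image f) fun i hi => ?_).trans
      (Finset.card_image_le.trans ?_)
    · by_contra hne
      refine (Finset.mem_filter.1 hi).2 (Finset.sum_eq_zero fun a _ => if_neg fun h => hne ?_)
      exact Finset.mem_image.2 ⟨a, Finset.mem_univ _, h⟩
    · refine hind.card_le_finrank_succ.trans (Nat.succ_le_succ ?_)
      exact (Submodule.finrank_le _).trans Complex.finrank_real_complex.le
  · simp only [Finset.sum_smul, ite_smul, zero_smul]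
    rw [Finset.sum_comm, ← heq]
    exact Finset.sum_congr rfl fun a _ => by rw [Finset.sum_ite_eq, if_pos (Finset.mem_univ _), hf a]

theorem twoStep_ok : TwoStepStatement := by
  intro V _ _ r X p hX hp c hc hb t g η q hg hq k
  obtain ⟨v, hv0, hv1, hsupp, hcard, heq⟩ := exists_three (hp k).1 (hp k).2
    fun s => (⟨tilt X p k t g s, tilt (-X) p k t g s⟩ : ℂ)
  have hv : IsProb (Function.update p k v) := fun u => by
    rcases eq_or_ne u k with rfl | hu
    · rw [Function.update_self]; exact ⟨hv0, hv1⟩
    · rw [Function.update_of_ne hu]; exact hp u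
  have hneg : OpBound (-X) c := fun w => by
    simpa [Matrix.neg_mulVec] using hb w
  have hcongr : ∀ u, u ≠ k → Function.update p k v u = p u := fun u hu =>
    Function.update_of_ne hu _ _
  have h1 := congrArg Complex.re heq
  have h2 := congrArg Complex.im heq
  simp only [Complex.re_sum, Complex.im_sum, Complex.smul_re, Complex.smul_im, smul_eq_mul]
    at h1 h2
  rw [sum_tilt_self hX hp k t hg] at h1
  rw [sum_tilt_self hX.neg hp k t hg] at h2
  exact ⟨v, hv, hcard, hsupp,
    rootSum_poly_le hX hp hv k hcongr hc hb hq (soft_le_of_tilt hX hp k t hg v hv h1.le),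
    rootSum_poly_le hX.neg hp hv k hcongr hc hneg hq
      (soft_le_of_tilt hX.neg hp k t hg v hv h2.le)⟩

end Vale.Agent.P078.MKS
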