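import Vale.Agent.P078.MKS.PassStatements
import Vale.Agent.P078.MKS.TwoSided.TwoStep
import Vale.Agent.P078.MKS.TwoSided.Shrink
import Vale.Agent.P078.MKS.TwoSided.Barrier
import Vale.Agent.P078.MKS.TwoSided.EndCut
import Vale.Agent.P078.MKS.Edge
import Vale.Agent.P078.MKS.Assembly.Span

/-!
Two-sided paving from the greedy passes: three colours per point first, then the heaviest one.
-/

noncomputable section

namespace Vale.Agent.P078.MKS.Op

open Singular
open scoped Classical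

/-- A polynomial close to the smoothed indicator on `[-1, 1]`, in value and slope. -/
lemma exists_soft_poly (t g : ℝ) {η : ℝ} (hη : 0 < η) :
    ∃ q : Polynomial ℝ,
      (∀ x ∈ Set.Icc (-1 : ℝ) 1, |(Polynomial.derivative q).eval x - deriv (soft t g) x| ≤ η) ∧
      ∀ x ∈ Set.Icc (-1 : ℝ) 1, |q.eval x - soft t g x| ≤ 2 * η := by
  have hsd : ContDiff ℝ 1 (soft t g) := by
    unfold soft
    exact contDiff_const.add
      ((Real.contDiff_arctan.comp ((contDiff_id.sub contDiff_const).div_const g)).div_const _)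
  obtain ⟨p, hp⟩ := exists_polynomial_near_of_continuousOn (-1) 1 (deriv (soft t g))
    (hsd.continuous_deriv le_rfl).continuousOn η hη
  set P := ∑ j ∈ Finset.range (p.natDegree + 1),
    Polynomial.C (p.coeff j / (j + 1)) * Polynomial.X ^ (j + 1) with hP
  have hPd : Polynomial.derivative P = p := by
    conv_rhs => rw [Polynomial.as_sum_range_C_mul_X_pow p]
    rw [hP, Polynomial.derivative_sum]
    refine Finset.sum_congr rfl fun j _ => ?_
    rw [Polynomial.derivative_C_mul_X_pow, Nat.add_sub_cancel]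
    push_cast
    rw [div_mul_cancel₀ _ (by positivity : (j : ℝ) + 1 ≠ 0)]
  refine ⟨P + Polynomial.C (soft t g (-1) - P.eval (-1)), fun x hx => ?_, fun x hx => ?_⟩
  · rw [Polynomial.derivative_add, Polynomial.derivative_C, add_zero, hPd]
    exact (hp x hx).le
  · have hd : ∀ z, HasDerivAt (fun z => P.eval z - soft t g z)
        (p.eval z - deriv (soft t g) z) z := fun z => by
      have := (P.hasDerivAt z).sub
        ((hsd.differentiable one_ne_zero).differentiableAt.hasDerivAt (x := z))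
      rwa [hPd] at this
    have h := (convex_Icc (-1 : ℝ) 1).norm_image_sub_le_of_norm_hasDerivWithin_le
      (fun z _ => (hd z).hasDerivWithinAt) (fun z hz => (hp z hz).le) (Set.left_mem_Icc.2
        (by norm_num)) hx
    rw [Real.norm_eq_abs, Real.norm_eq_abs] at h
    simp only [Polynomial.eval_add, Polynomial.eval_C]
    rw [show P.eval x + (soft t g (-1) - P.eval (-1)) - soft t g x =
      P.eval x - soft t g x - (P.eval (-1) - soft t g (-1)) by ring]
    have habs : |x - -1| ≤ 2 := abs_le.2 ⟨by linarith [hx.1], by linarith [hx.2]⟩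
    exact h.trans ((mul_le_mul_of_nonneg_left habs hη.le).trans (le_of_eq (mul_comm η 2)))

/-- Among at most three nonzero weights of sum one, one is at least `1/3`. -/
lemma exists_third {r : ℕ} {v : Fin r → ℝ} (hv : ∀ s, 0 ≤ v s) (h1 : ∑ s, v s = 1)
    (h3 : ({i | v i ≠ 0} : Finset (Fin r)).card ≤ 3) : ∃ s, 1 / 3 ≤ v s := by
  by_contra h
  push Not at h
  set J : Finset (Fin r) := {i | v i ≠ 0} with hJ
  have hne : J.Nonempty := by
    by_contra he
    rw [Finset.not_nonempty_iff_eq_empty] at he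
    have : ∀ s, v s = 0 := fun s => by
      by_contra hs
      exact Finset.notMem_empty s (he ▸ Finset.mem_filter.2 ⟨Finset.mem_univ s, hs⟩)
    simp [this] at h1
  have hlt : ∑ s ∈ J, v s < ∑ _s ∈ J, (1 / 3 : ℝ) := Finset.sum_lt_sum_of_nonempty hne fun s _ => h s
  rw [Finset.sum_const, nsmul_eq_mul] at hlt
  have hsum : ∑ s ∈ J, v s = 1 := by
    rw [← h1]
    exact Finset.sum_subset (Finset.subset_univ J) fun i _ hi => by simpa [hJ] using hi
  have : (J.card : ℝ) ≤ 3 := by exact_mod_cast h3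
  linarith

variable {H : Type} [NormedAddCommGroup H] [InnerProductSpace ℂ H] [CompleteSpace H]
  {M A : VonNeumannAlgebra H} {e : H →L[ℂ] H} {τ : (H →L[ℂ] H) →ₗ[ℂ] ℂ}

lemma int_const_mul (hM : IsMASA M A) (he : IsPr A e) (hτ : IsTrace M e τ) {f : Pt A → ℂ}
    (hf : f ∈ Rep A e) (c : ℝ) :
    int τ e ((fun _ => (c : ℂ)) * f) = c * int τ e f := by
  obtain ⟨a, ha, ha'⟩ := hf
  rw [int_eq hM he hτ ha ha', int_eq hM he hτ (csmul_mem (c : ℂ) ha) fun χ hχ => by
    rw [ev_smul χ _ ha, Pi.mul_apply, ha' χ hχ], smul_mul_assoc, map_smul, smul_eq_mul,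
    Complex.re_ofReal_mul]

lemma rootSum_neg_window {r : ℕ} {K : Type} [Fintype K] (a g : K → (H →L[ℂ] H)) (χ : Pt A)
    (U : Finset (Pt A)) (R : Pt A → (H →L[ℂ] H)) (S : St A r) :
    wsc (-1) a g χ U R S = -wsc 1 a g χ U R S := by
  ext u v; simp [wsc]

section Windows

variable (hM : IsMASA M A) (he : IsPr A e) {D : Gen M A e} {r : ℕ} {χ : Pt A}
  {U : Finset (Pt A)} {R : Pt A → (H →L[ℂ] H)} (hR : IsFrame M e χ U R)
  (hsa : IsSelfAdjoint D.op) (hl : (-1 : ℝ) • e ≤ D.op) (hu : D.op ≤ e)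
include hM he hR hsa hl hu

lemma sum_both {S : St A r} (hS : ∀ χ, Ok (S χ)) (q : Polynomial ℝ) :
    ∑ u, both q D.a D.g χ U R S u =
      rootSum (fun x => q.eval x) (charMix (wsc 1 D.a D.g χ U R S) (wt S U) Finset.univ) +
      rootSum (fun x => q.eval x) (charMix (-wsc 1 D.a D.g χ U R S) (wt S U) Finset.univ) := by
  simp only [both, Finset.sum_add_distrib]
  rw [sum_qmom (wsc_hermitian hM he D hR hsa (.inl rfl)) (isProb_wt hS U) zero_le_one
      (wsc_opBound hM he D hR hsa hl hu hS (.inl rfl)),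
    sum_qmom (wsc_hermitian hM he D hR hsa (.inr rfl)) (isProb_wt hS U) zero_le_one
      (wsc_opBound hM he D hR hsa hl hu hS (.inr rfl)), rootSum_neg_window]

lemma both_affine_le {S : St A r} (hS : ∀ χ, Ok (S χ)) (f g : Polynomial ℝ) (a b : ℝ)
    (h : ∀ x ∈ Set.Icc (-1 : ℝ) 1, f.eval x ≤ a + b * g.eval x) (u : U) :
    both f D.a D.g χ U R S u ≤ 2 * a + b * both g D.a D.g χ U R S u := by
  have h1 := fun (σ : ℂ) (hσ : σ = 1 ∨ σ = -1) =>
    qmom_affine_le (wsc_hermitian hM he D hR hsa hσ) (isProb_wt hS U) zero_le_one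
      (wsc_opBound hM he D hR hsa hl hu hS hσ) u f g a b
      fun z _ _ hz => h z.re (abs_le.1 hz)
  have e1 := h1 1 (.inl rfl)
  have e2 := h1 (-1) (.inr rfl)
  simp only [both]
  linarith

lemma step_three {η t g : ℝ} {q : Polynomial ℝ} (hg : 0 < g)
    (hq : ∀ x ∈ Set.Icc (-1 : ℝ) 1, |(Polynomial.derivative q).eval x - deriv (soft t g) x| ≤ η)
    {S : St A r} (hS : ∀ χ, Ok (S χ)) (hsc : ∀ χ, (S χ).2 = 1) (k : U) :
    ∃ v : Fin r → ℝ, ((∀ s, 0 ≤ v s) ∧ ∑ s, v s = 1) ∧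
      ({i | v i ≠ 0} : Finset (Fin r)).card ≤ 3 ∧
      ∑ u, both q D.a D.g χ U R (Function.update S (k : Pt A) (v, 1)) u ≤
        ∑ u, both q D.a D.g χ U R S u + 8 * η := by
  obtain ⟨v, hv, h3, -, h1, h2⟩ := twoStep_ok U r (wsc 1 D.a D.g χ U R S) (wt S U)
    (wsc_hermitian hM he D hR hsa (.inl rfl)) (isProb_wt hS U) 1 zero_le_one
    (wsc_opBound hM he D hR hsa hl hu hS (.inl rfl)) t g η q hg hq k
  have hvk := hv k
  rw [Function.update_self] at hvk
  refine ⟨v, hvk, h3, ?_⟩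
  have hS' : ∀ χ, Ok (Function.update S (k : Pt A) (v, 1) χ) := fun ζ => by
    rcases eq_or_ne ζ (k : Pt A) with rfl | hne
    · rw [Function.update_self]; exact ⟨hvk, zero_le_one, le_rfl⟩
    · rw [Function.update_of_ne hne]; exact hS ζ
  have e1 : wsc 1 D.a D.g χ U R (Function.update S (k : Pt A) (v, 1)) =
      wsc 1 D.a D.g χ U R S := by
    have hall : ∀ ζ, (Function.update S (k : Pt A) (v, 1) ζ).2 = 1 := fun ζ => by
      rcases eq_or_ne ζ (k : Pt A) with rfl | hne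
      · rw [Function.update_self]
      · rw [Function.update_of_ne hne]; exact hsc ζ
    ext a b
    simp only [wsc, Matrix.of_apply, hall, hsc]
  have e2 : wt (Function.update S (k : Pt A) (v, 1)) U = Function.update (wt S U) k v := by
    funext a
    rcases eq_or_ne a k with rfl | hne
    · simp [wt]
    · simp [wt, Function.update_of_ne hne, Function.update_of_ne (Subtype.coe_ne_coe.2 hne)]
  rw [sum_both hM he hR hsa hl hu hS' q, sum_both hM he hR hsa hl hu hS q, e1, e2]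
  linarith

lemma step_one {m : ℕ} {u : ℝ} (hu0 : 0 ≤ u) {n : ℕ} {E : Fin n → (H →L[ℂ] H)}
    (hE : IsPartition A e E) (hE0 : ∀ i, E i * D.op * E i = 0) {S : St A r}
    (hS : ∀ χ, Ok (S χ)) {d : ℝ} (hd0 : 0 ≤ d) (hd1 : d ≤ 1) (k : U) (hk : (S k).2 = 1)
    (s : Fin r) (hds : d ^ 2 ≤ (S k).1 s) :
    ∑ x, both (qm u m) D.a D.g χ U R (Function.update S (k : Pt A) (Pi.single s 1, d)) x ≤
      ∑ x, both (qm u m) D.a D.g χ U R S x + 0 := by
  have hS' : ∀ χ, Ok (Function.update S (k : Pt A) (Pi.single s 1, d) χ) := fun ζ => by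
    rcases eq_or_ne ζ (k : Pt A) with rfl | hne
    · rw [Function.update_self]
      refine ⟨⟨fun i => ?_, by simp⟩, hd0, hd1⟩
      by_cases hi : i = s <;> simp [hi]
    · rw [Function.update_of_ne hne]; exact hS ζ
  have e1 : ∀ σ : ℂ, wsc σ D.a D.g χ U R (Function.update S (k : Pt A) (Pi.single s 1, d)) =
      scaled (wsc σ D.a D.g χ U R S) (Function.update 1 k d) := by
    intro σ
    have hval : ∀ a : U, (Function.update S (k : Pt A) (Pi.single s 1, d) (a : Pt A)).2 =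
        Function.update (1 : U → ℝ) k d a * (S a).2 := fun a => by
      rcases eq_or_ne a k with rfl | hne
      · simp [hk]
      · simp [Function.update_of_ne hne, Function.update_of_ne (Subtype.coe_ne_coe.2 hne)]
    ext a b
    simp only [wsc, scaled, Matrix.of_apply, hval, Complex.ofReal_mul]
    ring
  have e2 : wt (Function.update S (k : Pt A) (Pi.single s 1, d)) U = setColour (wt S U) k s := by
    funext a
    rcases eq_or_ne a k with rfl | hne
    · simp [wt, setColour]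
    · simp [wt, setColour, Function.update_of_ne hne,
        Function.update_of_ne (Subtype.coe_ne_coe.2 hne)]
  have key : ∀ σ : ℂ, σ = 1 ∨ σ = -1 →
      rootSum (fun x => (qm u m).eval x) (charMix (wsc σ D.a D.g χ U R
          (Function.update S (k : Pt A) (Pi.single s 1, d)))
          (wt (Function.update S (k : Pt A) (Pi.single s 1, d)) U) Finset.univ) ≤
        rootSum (fun x => (qm u m).eval x)
          (charMix (wsc σ D.a D.g χ U R S) (wt S U) Finset.univ) := by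
    intro σ hσ
    have h := shrink_ok U r (wsc σ D.a D.g χ U R S) (wt S U)
      (wsc_hermitian hM he D hR hsa hσ) (isProb_wt hS U)
      (fun a => wsc_diag hM he D hR hsa hE hE0 σ a) 1 zero_le_one
      (wsc_opBound hM he D hR hsa hl hu hS hσ) k s d hd0 hds m
    rw [e1, e2]
    simp only [rootSum, eval_qm, div_pow, div_eq_inv_mul _ ((1 + u) ^ m),
      Multiset.sum_map_mul_left]
    exact mul_le_mul_of_nonneg_left h (by positivity)
  rw [sum_both hM he hR hsa hl hu hS' _, sum_both hM he hR hsa hl hu hS _, add_zero,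
    ← rootSum_neg_window, ← rootSum_neg_window]
  exact add_le_add (key 1 (.inl rfl)) (key (-1) (.inr rfl))

lemma start_le {n : ℕ} {E : Fin n → (H →L[ℂ] H)} (hE : IsPartition A e E)
    (hE0 : ∀ i, E i * D.op * E i = 0) (hr : 0 < r) {b : ℝ} (hb : 1 < b) (q : Polynomial ℝ) {B : ℝ}
    (hB : ∀ x ∈ Set.Icc (-1 : ℝ) 1, x ≤ edge (-1) 0 b r → q.eval x ≤ B) (k : U) :
    both q D.a D.g χ U R (fun _ : Pt A => ((fun _ : Fin r => (1 / r : ℝ)), (1 : ℝ))) k ≤
      2 * B := by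
  set S₀ : St A r := fun _ => ((fun _ : Fin r => (1 / r : ℝ)), (1 : ℝ)) with hS₀
  have hrR : (r : ℝ) ≠ 0 := Nat.cast_ne_zero.2 (by omega)
  have hok : ∀ χ, Ok (S₀ χ) := fun _ =>
    ⟨⟨fun _ => by positivity, by simp [hS₀, hrR]⟩, zero_le_one, le_rfl⟩
  have key : ∀ σ : ℂ, σ = 1 ∨ σ = -1 →
      qmom (wsc σ D.a D.g χ U R S₀) (wt S₀ U) k q ≤ B := by
    intro σ hσ
    refine qmom_le (wsc_hermitian hM he D hR hsa hσ) (isProb_wt hok U) zero_le_one
      (wsc_opBound hM he D hR hsa hl hu hok hσ) k q B fun z hz _ hzc => ?_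
    refine hB z.re (abs_le.1 hzc) (Edge.edge_ok U r (wsc σ D.a D.g χ U R S₀) (-1) 0 b hr
      (wsc_hermitian hM he D hR hsa hσ) (by norm_num) le_rfl zero_le_one hb (fun v => ?_)
      (fun a => by rw [wsc_diag hM he D hR hsa hE hE0 σ a]; simp) z hz)
    obtain ⟨h1, h2⟩ := form_bounds hM he D hR hl hu v
    rcases hσ with rfl | rfl
    · have e : wsc 1 D.a D.g χ U R S₀ = wmat D.a D.g χ R U := by
        ext a b; simp [wsc, wmat, hS₀]
      rw [e]
      exact ⟨h1, h2⟩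
    · have e : wsc (-1) D.a D.g χ U R S₀ = -wmat D.a D.g χ R U := by
        ext a b; simp [wsc, wmat, hS₀]
      rw [e, Matrix.neg_mulVec, dotProduct_neg, Complex.neg_re]
      constructor <;> linarith
  simp only [both]
  linarith [key 1 (.inl rfl), key (-1) (.inr rfl)]

end Windows

lemma budget {τe δ δ₀ c₀ η κ G J₀ J₁ J₂ J₃ : ℝ} (hτe : 0 ≤ τe) (hc₀ : 0 < c₀)
    (hδ₀ : 0 ≤ δ₀) (hδ : δ₀ * (τe + 1) = δ / 9) (hη : η = δ₀ / (4 * (17 * c₀ + 1)))
    (hG : G = δ₀ / (8 * c₀)) (hκ : κ ≤ δ₀ / 6)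
    (h0 : J₀ ≤ 2 * (G + 2 * η) * τe) (h1 : J₁ ≤ J₀ + (8 * η + η) * τe)
    (h2 : J₂ ≤ 2 * (κ + c₀ * (2 * η)) * τe + c₀ * J₁) (h3 : J₃ ≤ J₂ + (0 + η) * τe) :
    J₃ ≤ δ / 9 := by
  have h4 : c₀ * J₁ ≤ c₀ * (2 * (G + 2 * η) * τe + (8 * η + η) * τe) :=
    mul_le_mul_of_nonneg_left (by linarith) hc₀.le
  have h5 : c₀ * G = δ₀ / 8 := by rw [hG]; field_simp
  have h6 : (17 * c₀ + 1) * η = δ₀ / 4 := by rw [hη]; field_simp
  have h7 : κ * τe ≤ δ₀ / 6 * τe := mul_le_mul_of_nonneg_right hκ hτe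
  have h8 : c₀ * G * τe = δ₀ / 8 * τe := by rw [h5]
  have h9 : (17 * c₀ + 1) * η * τe = δ₀ / 4 * τe := by rw [h6]
  linarith [mul_nonneg hδ₀ hτe]

/-- From the two traces to the two excesses. -/
lemma two_cut (hes : IsStarProjection e) (heM : e ∈ M) (hτ : IsTrace M e τ) {S : H →L[ℂ] H}
    (hSc : Cor M e S) (hSs : IsSelfAdjoint S) (hb1 : (-1 : ℝ) • e ≤ S) (hb2 : S ≤ (1 : ℝ) • e)
    {d : ℝ} (hd2 : d ^ 2 = 1 / 3) {u δ : ℝ} (hu0 : 0 < u) (m : ℕ)
    (htot : (τ (e * Polynomial.aeval ((d ^ 2) • S) (qm u m) * e)).re +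
      (τ (e * Polynomial.aeval (-((d ^ 2) • S)) (qm u m) * e)).re ≤ δ / 9) :
    (τ (excess (3 * u) S * excess (3 * u) S)).re ≤ δ ∧
      (τ (excess (3 * u) (-S) * excess (3 * u) (-S))).re ≤ δ := by
  set T := (d ^ 2) • S with hT
  have hTn : ∀ Z : H →L[ℂ] H, IsSelfAdjoint Z → Cor M e Z → (-1 : ℝ) • e ≤ Z → Z ≤ (1 : ℝ) • e →
      ‖(d ^ 2) • Z‖ ≤ 1 := fun Z hZs hZ h1 h2 => by
    refine (norm_smul_le _ _).trans ?_
    rw [Real.norm_eq_abs, abs_of_nonneg (sq_nonneg d), hd2]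
    have h3 : ‖Z‖ ≤ 1 := norm_le_of_bounds hZs zero_le_one
      (le_trans (by
        rw [neg_one_smul, neg_one_smul, neg_le_neg_iff]
        exact proj_le_one hes) h1)
      (h2.trans (by rw [one_smul, one_smul]; exact proj_le_one hes))
    linarith [mul_le_mul_of_nonneg_left h3 (show (0 : ℝ) ≤ 1 / 3 by norm_num)]
  have hpos : ∀ Z : H →L[ℂ] H, IsSelfAdjoint Z → Cor M e Z → ‖Z‖ ≤ 1 →
      0 ≤ (τ (e * Polynomial.aeval Z (qm u m) * e)).re := fun Z hZs hZ hZ1 => by
    have hq : 0 ≤ Polynomial.aeval Z (qm u m) := by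
      rw [← cfc_polynomial (qm u m) Z]
      refine cfc_nonneg fun x hx => qm_nonneg hu0.le m ?_
      exact abs_le.1 (((Real.norm_eq_abs x).symm.le.trans
        (spectrum.norm_le_norm_mul_of_mem hx)).trans
        ((mul_le_of_le_one_right (norm_nonneg _) ContinuousLinearMap.norm_id_le).trans hZ1))
    refine tr_nonneg hτ hes ⟨mul_mem (mul_mem heM (cfc_polynomial (qm u m) Z ▸
      cfc_mem hZ.1 _)) heM, ?_⟩ ?_
    · simp only [← mul_assoc, hes.isIdempotentElem.eq]
      simp only [mul_assoc, hes.isIdempotentElem.eq]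
    · have := conj_le hq e
      rwa [hes.isSelfAdjoint.star_eq, mul_zero, zero_mul] at this
  have hT' : IsSelfAdjoint T := (IsSelfAdjoint.all (d ^ 2)).smul hSs
  have hTc : Cor M e T := hSc.rsmul _
  have hT1 := hTn _ hSs hSc hb1 hb2
  have hT1n : ‖-T‖ ≤ 1 := by rw [norm_neg]; exact hT1
  have hB : Cor M e ((Real.sqrt 3) • e) := (cor_proj heM hes).rsmul _
  have hBs : IsSelfAdjoint ((Real.sqrt 3) • e) := (IsSelfAdjoint.all _).smul hes.isSelfAdjoint
  have hB3 : (Real.sqrt 3) • e * (Real.sqrt 3) • e ≤ (3 : ℝ) • e := by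
    rw [smul_mul_smul_comm, hes.isIdempotentElem.eq, Real.mul_self_sqrt (by norm_num)]
  have hBT : ∀ Z : H →L[ℂ] H, Cor M e Z →
      (Real.sqrt 3) • e * ((d ^ 2) • Z) * (Real.sqrt 3) • e = Z := fun Z hZ => by
    simp only [smul_mul_assoc, mul_smul_comm, smul_smul, hZ.2]
    rw [show Real.sqrt 3 * (d ^ 2 * Real.sqrt 3) = 1 by
      rw [mul_left_comm, Real.mul_self_sqrt (by norm_num), hd2]; norm_num, one_smul]
  have hcut := fun (Z : H →L[ℂ] H) (hZ : Cor M e Z) (hZs : IsSelfAdjoint Z)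
      (hZn : ‖(d ^ 2) • Z‖ ≤ 1) (h : (τ (e * Polynomial.aeval ((d ^ 2) • Z) (qm u m) * e)).re ≤
        δ / 9) =>
    (end_cut hτ hes heM (hZ.rsmul (d ^ 2)) ((IsSelfAdjoint.all (d ^ 2)).smul hZs) hZn hB hBs hB3
      (hBT Z hZ) hu0 (fun x hx => excess_sq_le_qm hu0.le m hx) h).trans
      (le_of_eq (by ring : 9 * (δ / 9) = δ))
  refine ⟨hcut _ hSc hSs hT1 ?_, hcut _ hSc.neg hSs.neg (by rw [smul_neg]; exact hT1n) ?_⟩
  · linarith [hpos (-T) hT'.neg hTc.neg hT1n]
  · rw [smul_neg, ← hT]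
    linarith [hpos T hT' hTc hT1]


theorem twoSided_of (hRep : RepPotStatement) (hPass : PassStatement) (hFinal : FinalStatement) :
    TwoSidedStatement := by
  intro H _ _ _ M A e τ hM heA hes hτ y hy hsa hl hu n E hE hE0 r b u δ hr hb heu hδ
  have he : IsPr A e := ⟨heA, hes⟩
  obtain ⟨D, rfl⟩ := exists_gen hM he hy
  set τe := (τ e).re with hτe
  have hτe0 : 0 ≤ τe := tr_nonneg hτ hes (cor_proj (hM.1 e heA) hes) hes.nonneg
  set e₀ := edge (-1) 0 b r with he₀
  have he₀0 : 0 < e₀ := by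
    have h1 : b + 1 ≠ 0 := by linarith
    have h2 : b - 1 ≠ 0 := by linarith
    have h3 : (0 : ℝ) < b := by linarith
    have hrR : (0 : ℝ) < r := by exact_mod_cast hr
    have h4 : ((1 - 0) / (b - -1) + (0 - -1) / (b - 1)) / (1 - -1) = b / ((b + 1) * (b - 1)) := by
      rw [sub_neg_eq_add]; field_simp; ring
    have h5 : b - (b + 1) * (b - 1) / b = 1 / b := by field_simp; ring
    rw [he₀, edge, h4, one_div_div, h5]
    positivity
  set t := (e₀ + u) / 2 with ht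
  have hte : e₀ < t := by rw [ht]; linarith
  have htu : t < u := by rw [ht]; linarith
  have hu0 : 0 < u := by linarith
  set δ₀ := δ / (9 * (τe + 1)) with hδ₀
  have hδ₀0 : 0 < δ₀ := by positivity
  obtain ⟨m, hm⟩ := exists_qm_exponent (u := u) (t := t) (by linarith) htu
    (show 0 < δ₀ / 6 by positivity)
  set c₀ := 2 * (2 / (1 + u)) ^ m with hc₀
  have hc₀0 : 0 < c₀ := by positivity
  set g := δ₀ * (t - e₀) / (8 * c₀) with hg
  have hg0 : 0 < g := by have : 0 < t - e₀ := sub_pos.2 hte; positivity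
  set η := δ₀ / (4 * (17 * c₀ + 1)) with hη
  have hη0 : 0 < η := by positivity
  obtain ⟨qs, hqs, hqs'⟩ := exists_soft_poly t g hη0
  set N := max qs.natDegree (qm u m).natDegree with hN
  have hNs : qs.natDegree ≤ N := le_max_left _ _
  have hNm : (qm u m).natDegree ≤ N := le_max_right _ _
  have hrR : (r : ℝ) ≠ 0 := Nat.cast_ne_zero.2 (by omega)
  -- the initial state
  set S₀ : St A r := fun _ => ((fun _ : Fin r => (1 / r : ℝ)), (1 : ℝ)) with hS₀
  have hS₀s : IsState A e S₀ :=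
    ⟨fun _ => ⟨⟨fun _ => by positivity, by simp [hS₀, hrR]⟩, zero_le_one, le_rfl⟩,
      fun s => rep_const ((1 / r : ℝ) : ℂ), rep_const ((1 : ℝ) : ℂ)⟩
  have hmem : ∀ χ : Pt A, ev χ e = 1 → χ ∈ D.ball χ N := fun χ h =>
    (mem_ball D).2 (reaches_self hM he D h N)
  have hI0 : int τ e (fun χ => (pot D N qs S₀ χ : ℂ)) ≤ (2 * (g / (t - e₀) + 2 * η)) * τe := by
    refine (int_mono hM he hτ (hRep H M A e hM he D N qs hNs r hr S₀ hS₀s) (rep_const _)
      fun χ hχ => ?_).trans (le_of_eq (int_const hM he hτ _))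
    simp only [Complex.ofReal_re, pot, dif_pos (hmem χ hχ)]
    refine start_le hM he (frame_ball hM he D χ N) hsa hl hu hE hE0 hr hb qs
      (fun x hx hxe => ?_) _
    linarith [(abs_le.1 (hqs' x hx)).2, soft_le hg0 hxe hte]
  -- first pass: at most three colours at every point
  let opt₁ : {v : Fin r → ℝ // ((∀ s, 0 ≤ v s) ∧ ∑ s, v s = 1) ∧
      ({i | v i ≠ 0} : Finset (Fin r)).card ≤ 3} → (Fin r → ℝ) × ℝ := fun v => (v.1, 1)
  obtain ⟨S₁, hS₁s, hS₁, hS₁e, hI1⟩ := hPass H M A e τ hM he hτ D N qs hNs r hr S₀ hS₀s _ opt₁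
    (fun v => ⟨v.2.1, zero_le_one, le_rfl⟩) (8 * η) η hη0 fun S hS hSo χ U R hR k _ => by
      obtain ⟨v, hv, h3, h⟩ := step_three hM he hR hsa hl hu hg0 hqs hS.1 (fun ζ => by
        rcases hSo ζ with h | ⟨i, h⟩ <;> rw [h]) k
      exact ⟨⟨v, hv, h3⟩, h⟩
  have hsc₁ : ∀ χ, (S₁ χ).2 = 1 := fun χ => by
    rcases hS₁ χ with h | ⟨i, h⟩ <;> rw [h]
  -- second pass: the heaviest colour, scaled
  set d := Real.sqrt (1 / 3) with hd
  have hd0 : 0 ≤ d := Real.sqrt_nonneg _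
  have hd2 : d ^ 2 = 1 / 3 := Real.sq_sqrt (by norm_num)
  have hd1 : d ≤ 1 := Real.sqrt_le_one.2 (by norm_num)
  let opt₂ : Fin r → (Fin r → ℝ) × ℝ := fun s => (Pi.single s 1, d)
  obtain ⟨S₂, hS₂s, -, hS₂e, hI2⟩ := hPass H M A e τ hM he hτ D N (qm u m) hNm r hr S₁ hS₁s _ opt₂
    (fun s => ⟨⟨fun i => by by_cases hi : i = s <;> simp [opt₂, hi], by simp [opt₂]⟩, hd0, hd1⟩)
    0 η hη0 fun S hS _ χ U R hR k hk => by
      obtain ⟨i, hi⟩ := hS₁e (k : Pt A) (hR k k.2).2.2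
      obtain ⟨s, hs⟩ := exists_third i.2.1.1 i.2.1.2 i.2.2
      refine ⟨s, step_one hM he hR hsa hl hu hu0.le hE hE0 hS.1 hd0 hd1 k
        (by rw [hk, hsc₁]) s ?_⟩
      rw [hk, hi, hd2]
      exact hs
  -- the end of the first pass controls the start of the second
  have hrs := hRep H M A e hM he D N qs hNs r hr S₁ hS₁s
  have hI3 : int τ e (fun χ => (pot D N (qm u m) S₁ χ : ℂ)) ≤
      2 * (((1 + t) / (1 + u)) ^ m + c₀ * (2 * η)) * τe +
        c₀ * int τ e (fun χ => (pot D N qs S₁ χ : ℂ)) := by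
    have hc := rep_const (A := A) (e := e)
      ((2 * (((1 + t) / (1 + u)) ^ m + c₀ * (2 * η)) : ℝ) : ℂ)
    have hmul := mul_mem (rep_const (A := A) (e := e) (c₀ : ℂ)) hrs
    refine (int_mono hM he hτ (hRep H M A e hM he D N _ hNm r hr S₁ hS₁s) (add_mem hc hmul)
      fun χ hχ => ?_).trans (le_of_eq ?_)
    · simp only [Pi.add_apply, Pi.mul_apply, Complex.ofReal_re, Complex.add_re, Complex.mul_re,
        Complex.ofReal_im, mul_zero, sub_zero, pot, dif_pos (hmem χ hχ)]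
      refine both_affine_le hM he (frame_ball hM he D χ N) hsa hl hu hS₁s.1 _ _ _ _
        (fun x hx => ?_) _
      have h1 := qm_le hu0.le (show -1 ≤ t by linarith) hg0 m hx
      rw [← hc₀] at h1
      nlinarith [mul_le_mul_of_nonneg_left (abs_le.1 (hqs' x hx)).1 hc₀0.le]
    · rw [int_add hM he hτ hc hmul, int_const hM he hτ, int_const_mul hM he hτ hrs]
  -- the final partition
  obtain ⟨P, hP, hPe⟩ := hFinal H M A e τ hM he hτ D N (qm u m) hNm r hr S₂ d hS₂s hS₂e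
  refine ⟨P, hP, ?_⟩
  have hyc : Cor M e D.op := normSpan_cor hM hy
  obtain ⟨hb1, hb2⟩ := pinch_bounds hP hl (le_of_le_of_eq hu (one_smul ℝ e).symm)
  exact two_cut hes (hM.1 e heA) hτ (cor_pinch hτ hes hM.1 hP hyc.1) (pinch_selfAdjoint' hP hsa)
    hb1 hb2 hd2 hu0 m (hPe.le.trans (budget hτe0 hc₀0 hδ₀0.le
      (by rw [hδ₀]; field_simp) hη (by rw [hg]; field_simp [(sub_pos.2 hte).ne']) hm.le
      hI0 hI1 hI3 hI2))

end Vale.Agent.P078.MKS.Op
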